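import Crest.Agent.X212.Mi59.Nf
import Crest.Agent.X212.Sep15.MrA
import Crest.Agent.X212.Kit16.Dw

/-!
# Row 212, FACT (helper59): LEAF ML, the models of the left parts
-/

set_option autoImplicit false
set_option linter.unusedSectionVars false
set_option maxHeartbeats 400000
noncomputable section
open scoped Manifold ContDiff Topology InnerProductSpace
open MeasureTheory Set Function Filter Classical

namespace Crest.Agent.X212.Mi59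
open An M G75 Jb7 Ins26 Nd18 Rf65 Pte3 Fk18 Sep15.Spl
open An.Job (Sol SolOn StrOn Str)

theorem norm_zf {r r' : ℕ} (h : r' ≤ r) {v : EuclideanSpace ℂ (Fin r)}
    (k : ∀ j : Fin r, r' ≤ j → v j = 0) : ‖zf (Fin.castLE h) v‖ = ‖v‖ := by
  rw [EuclideanSpace.norm_eq, EuclideanSpace.norm_eq]
  refine congrArg _ (Finset.sum_of_injOn (Fin.castLE h) (Fin.castLE_injective h).injOn
    (fun _ _ => Finset.mem_univ _) (fun j _ e => ?_) fun _ _ => rfl)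
  rw [k j (not_lt.1 fun a => e ⟨⟨j, a⟩, Finset.mem_univ _, rfl⟩)]
  simp

variable {κ lam : Type} [Fintype κ] [Fintype lam] [DecidableEq lam] {Lm : LM κ lam}
  {y₀ : G75.YD κ lam} {S : Scene Lm} {P : Pk y₀} {z : Z0 P S} {Z : Z1 z} {R : ℕ} {T δ : ℝ}
  {Adm : (Z.F.Wi →₀ ℝ) → Prop} {q : Z.F.Wi →₀ ℝ} {y : Z.Ob} {F : Set (Reg S.A)}

variable (Z) in
/-- the left job -/
abbrev JL := Z.F.JL z.c Z.i z.m

variable (Z) in
/-- the left part -/
abbrev pL (F : Set (Reg S.A)) : Prt S.A (S.A ⊕ Unit) S.ls := (JL Z).prt (shS S) Z.ce Z.e F F ∅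

/-- the left object -/
abbrev rl (y : Z.Ob) : (JL Z).Obc Z.e := resL z.c z.d Z.i z.m z.k y

theorem l_ok (h1 : Z.OK T) : (JL Z).OK ∧ LocP (JL Z) (shS S) := h1.F.L _ (c_ne h1) _

theorem pg_L (h1 : Z.OK T) (sm : Z.Sm) (hF : F ⊆ Z.Ro false) : PG (JL Z) Z.e Z.ce (pL Z F) :=
  ⟨(l_ok h1).1, ce_mem h1, (l_ok h1).2.pok _ (ce_mem h1) _ _ _ _
    (fun _ k => (ro_sdP sm (hF k)).1) subset_rfl⟩

/-- left pieces have no right end at `a` -/
theorem not_right (sm : Z.Sm) {π : Reg S.A} (hπ : π ∈ Z.Ro false) : π z.t.a ≠ some true :=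
  fun e => let ⟨_, hx⟩ := (S.M.sys.w z.t.a).ne true
    (S.M.sys.w z.t.a).not_mem_sd hx.2 ((ro_sdP sm hπ).2 ((ro_sdP sm hπ).1.adj _ _ e hx))

/-- no spinor on the other left pieces -/
theorem zero_L (sm : Z.Sm) (lx : Z.LxAt δ Adm) (ha : Adm q) (hy : Sol Z.ce q y) :
    ∀ π ∈ sdP z.t Z.e false, π ∉ y.F (Z.Ro false) → ¬y.TF π := fun π hπ k j => by
  have := S.M.con
  rcases sm.cov π hπ.1 with ⟨_ | _, e⟩ | ⟨l, hl, rfl⟩
  · exact k ⟨e, j⟩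
  · obtain ⟨x, hx⟩ := hπ.1.toIsReg.nonempty
    exact (S.M.sys.w z.t.a).not_mem_sd (hπ.2 hx) ((ro_sdP sm e).2 hx)
  · exact (lx q y l ha hy hl).1 j

/-- the live coordinates have norm one -/
theorem norm_live (h0 : z.OK R) (h1 : Z.OK T) (hq : Z.Dead q) (hy : Sol Z.ce q y) :
    ‖zf (Pr.eL z.m z.k) y.x.z‖ = 1 := by
  have km := h0.km
  refine (norm_zf _ fun j hj => ?_).trans (hy.sol.z.resolve_left (by omega))
  have := j.2
  have := (Kit16.kills (i := Z.i) h1.F km (fc_of h1 hy.cell hy.inf).2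
    (hq ⟨j - (z.m - z.k + 1), by omega⟩) (by simp; omega)).zero (hy.sol.S _)
  rwa [show Fin.natAdd _ _ = j from Fin.ext (by simp; omega)] at this

/-- the left part of a solution -/
theorem sa_L (h0 : z.OK R) (h1 : Z.OK T) (sm : Z.Sm) (lx : Z.LxAt δ Adm) (ha : Adm q)
    (hq : Z.Dead q) (hy : Sol Z.ce q y) : SA z.t.a (pL Z (y.F (Z.Ro false))) Z.ce q (rl y) ∧
      Job.In (pL Z (y.F (Z.Ro false))) (rl y) :=
  have k : ∀ π ∈ y.F (Z.Ro false), (rl y).TF π := fun _ hπ => (tf_res (ro_sdP sm hπ.1)).2 hπ.2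
  ⟨⟨solL h1.F (c_ne h1) (ce_mem h1) h1.a hy (fun _ j => ro_sdP sm j.1) (zero_L sm lx ha hy)
      (norm_live h0 h1 hq hy), fun π hπ => .inr (.inl (k π hπ)),
    fun _ ⟨_, j, e⟩ => (not_right sm j.1 e).elim⟩, k, fun _ a b => (b a).elim⟩

/-- **LEAF ML** -/
theorem ml : MlStmt Lm := fun ja _ _ S z _ Z _ h0 h1 sm _ hδ => by
  have mj : MJ (JL Z) Z.e z.t.a :=
    Z1.mj (τ := τL Z.F z.m) h0 h1 ja.ly (l_ok h1).1 (l_ok h1).2
  obtain ⟨δ, ⟨ix, lx⟩, pm⟩ := (hδ.and (ja.pm _ _ _ _ _ _ _ _ _ mj)).exists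
  refine (lx.and pm).mono fun Adm ⟨lx, pm⟩ de F hF _ => ?_
  obtain ⟨D, hD⟩ := pm _ _ (pg_L h1 sm hF)
    (fun q y => SA z.t.a (pL Z F) Z.ce q y ∧ Job.In (pL Z F) y) fun q y ha k => ⟨k.1,
      onC mj.nb ⟨nofun, fun _ _ _ i => i.elim0, fun _ _ _ _ _ _ j => j.1.elim⟩
        (fun s hs e π hπ => h1.F.richL _ _ _ _ h1.c (fc_of h1 hs e) _ e π (ro_sdP sm (hF hπ)))
        ha k.1 k.2⟩
  refine ⟨_, pull hD rl (fun q y ha k => k.2 ▸ sa_L h0 h1 sm lx ha (de q ha) k.1)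
    (fun _ _ _ _ _ _ e => strOn (j_ok h1).1 e (fun _ j => ro_sdP sm (hF j)) fun _ j => j.1.elim)
    fun q y d ha k hd => ?_⟩
  obtain ⟨k, rfl⟩ := k
  have s := sa_L h0 h1 sm lx ha (de q ha) k
  exact ok_L (τ := τL Z.F z.m) h0 h1 ja sm ix lx ha k (l_ok h1) rfl rfl rfl s.1 s.2 hd

end Crest.Agent.X212.Mi59
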