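import Crest.Agent.X212.Mi59.Num

/-!
# Row 212, FACT (helper59): LEAF MI, the models of the irreducible pieces
-/

set_option autoImplicit false
set_option linter.unusedSectionVars false
set_option maxHeartbeats 400000
noncomputable section
open scoped Manifold ContDiff Topology InnerProductSpace
open MeasureTheory Set Function Filter Classical

namespace Crest.Agent.X212.Mi59
open An M G75 Jb7 Ins26 Nd18 Rf65 Pte3 Fk18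
open An.Job (Sol SolOn StrOn Str)

variable {κ lam : Type} [Fintype κ] [Fintype lam] [DecidableEq lam] {Lm : LM κ lam}
  {y₀ : G75.YD κ lam} {S : Scene Lm} {P : Pk y₀} {z : Z0 P S} {Z : Z1 z} {R : ℕ} {T δ : ℝ}
  {Adm : (Z.F.Wi →₀ ℝ) → Prop} {q : Z.F.Wi →₀ ℝ} {y : Z.Ob}

variable (Z) in
/-- the part of an irreducible piece -/
abbrev pI (π : Reg S.A) (H : Set S.ls) : Prt S.A (S.A ⊕ Unit) S.ls :=
  Z.J.prt (shS S) Z.ce Z.e {π} ∅ H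

theorem mj_noz (h0 : z.OK R) (h1 : Z.OK T) (ly : LyStmt Lm) : MJ Z.J.noz Z.e z.t.a :=
  Z1.mj (τ := tz (Z.F.tt Z.i z.m z.k)) h0 h1 ly (j_ok h1).1.noz (locP_noz (j_ok h1).2)

theorem pg_I (h1 : Z.OK T) {π : Reg S.A} (hπ : S.M.sys.Piece Z.e.1 π) (H : Set S.ls) :
    PG Z.J.noz Z.e Z.ce (pI Z π H) :=
  ⟨(j_ok h1).1.noz, ce_mem h1, ((j_ok h1).2.pok _ (ce_mem h1) _ _ _ H (fun _ k => k ▸ hπ)
    (empty_subset _)).noz⟩

/-- **the numbers** -/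
theorem ok_I (h0 : z.OK R) (h1 : Z.OK T) (ja : JA Lm) (sm : Z.Sm) (ix : Z.IxAt δ)
    (lx : Z.LxAt δ Adm) (ha : Adm q) (hy : Sol Z.ce q y) {π : Reg S.A}
    (hπ : S.M.sys.Piece Z.e.1 π) (k0 : ¬y.TF π) (k1 : ¬y.TA π) {d : ℤ}
    (hd : RegA z.t.a δ Z.ce (pI Z π y.H) q y.noz d) : Z1.okI π y := fun o ho ρ hρ e => by
  subst e
  have mj := mj_noz h0 h1 ja.ly
  have pg := pg_I h1 hπ y.H
  obtain ⟨sa, hI⟩ := sa_I (a := z.t.a) (sh := shS S) (j_ok h1).1 (ce_mem h1) hy hπ k0 k1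
  obtain ⟨x, e, dA, dT, hx⟩ := fill lx ha hy
  have hQ : ({ρ} : Finset (Reg S.A)) ⊆ Z.Rg false ∪ Z.Rg true := Finset.singleton_subset_iff.2 hρ
  have im : ou Z.e '' ↑({ρ} : Finset (Reg S.A)) = {ou Z.e ρ} := by simp
  have e1 := ix _ 0 0 (tz (Z.F.tt Z.i z.m z.k)) false {ρ} _ q y.noz o d x dA mj pg hQ im.symm rfl sa
    (RegA.ch hd) (fun b _ => ho b) fun π' k l hl =>
      let j := hx l (mem_LE.1 hl).1; ⟨j.1, j.2.2.1⟩
  have e2 := ja.sy _ _ _ _ _ _ _ _ _ mj _ _ δ q y.noz d pg sa hI hd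
  have e3 := sum_le_sym (J := Z.J.noz) (a := z.t.a) (p := pI Z (ou Z.e ρ) y.H) (y := y.noz)
    (LE Z.e ρ) Subtype.val Subtype.val_injective.injOn fun l hl =>
      let j := le_end h0 hl; ⟨j.1, j.2.1, _, rfl, j.2.2⟩
  have e4 := sm.V _ hQ
  have e5 := sm.H _ hQ y.H
  have e6 := sum_drop Z.e y.H ρ
  rw [im] at e4 e5
  have e7 : ∑ l ∈ LE Z.e ρ, (Z1.kp y (hp l.1 false) + y.k l) =
      ∑ l ∈ LE Z.e ρ, (Z1.kp (x l) (hp l.1 false) + e l) :=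
    Finset.sum_congr rfl fun l hl => (hx l (mem_LE.1 hl).1).2.1
  have e8 : ∑ l ∈ LE Z.e ρ, (1 : ℝ) ≤
      ∑ l ∈ LE Z.e ρ, (dA l + 8 * (e l + if l ∈ y.H then 0 else 1) : ℝ) :=
    Finset.sum_le_sum fun l hl => by
      have := (hx l (mem_LE.1 hl).1).2.2.2.2.1
      split_ifs at this ⊢ <;> exact_mod_cast this
  have e9 : ((LE Z.e ρ).card : ℝ) ≤ (LE Z.e ρ ∪ DR y.H ρ).card :=
    Nat.cast_le.2 (Finset.card_le_card Finset.subset_union_left)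
  have e10 : ((∑ l ∈ LE Z.e ρ, dz (Z.J.xs l).D (y.β l true) : ℕ) : ℤ) ≤
      d + (Z.J.lv (shS S) Z.ce Z.e {ou Z.e ρ}).ncard - 2 * (Z.J.cs {ou Z.e ρ} y.H).ncard :=
    ((Nat.cast_le.2 (e3.trans (Nat.le_add_left _ _))).trans e2).trans_eq (by simp [dmA, Job.prt])
  have e11 : ((∑ l ∈ LE Z.e ρ, dz (Z.J.xs l).D (y.β l true) : ℕ) : ℝ) ≤
      d + (Z.J.lv (shS S) Z.ce Z.e {ou Z.e ρ}).ncard - 2 * (Z.J.cs {ou Z.e ρ} y.H).ncard := by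
    exact_mod_cast e10
  simp only [Finset.sum_singleton] at e1 e4 e5
  have e4' := congrArg (Nat.cast (R := ℝ)) e4
  have e5' := (Nat.cast_le (α := ℝ)).2 e5
  simp only [cond_false, nz, Bool.false_eq_true, false_and, if_false, Int.cast_zero, ite_self,
    add_zero, Finset.sum_add_distrib, Finset.sum_sub_distrib, ← Finset.mul_sum, mul_add,
    Finset.sum_const, nsmul_eq_mul, mul_one, Nat.cast_add, Nat.cast_sum] at e1 e4' e5' e7 e8 e11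
  simp only [Z1.Xf, Dr, Dl, Z1.Kp, Finset.sum_add_distrib]
  have e12 : Z1.kp (τ := tz (Z.F.tt Z.i z.m z.k)) y.noz (ou Z.e ρ) = Z1.kp y (ou Z.e ρ) := rfl
  linarith

/-- **LEAF MI** -/
theorem mi : MiStmt Lm := fun ja _ _ S z _ Z _ h0 h1 sm _ hδ => by
  have mj := mj_noz h0 h1 ja.ly
  obtain ⟨δ, ⟨ix, lx⟩, pm⟩ := (hδ.and (ja.pm _ _ _ _ _ _ _ _ _ mj)).exists
  refine (lx.and pm).mono fun Adm ⟨lx, pm⟩ _ b π hπ H => ?_
  have hp := (ro_sdP sm hπ).1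
  obtain ⟨D, hD⟩ := pm _ _ (pg_I h1 hp H)
    (fun q y => SA z.t.a (pI Z π H) Z.ce q y ∧ Job.In (pI Z π H) y) fun q y ha k => ⟨k.1,
      onC mj.nb ⟨fun _ => ⟨rfl, rfl⟩, fun _ _ _ i => i.elim0, fun s hs e _ j l _ hl =>
        j ▸ (rich_noz h0 h1 sm hπ hs e).2 l (j ▸ hl)⟩
        (fun s hs e _ j => j ▸ (rich_noz h0 h1 sm hπ hs e).1) ha k.1 k.2⟩
  exact ⟨_, pull hD Job.Obc.noz
    (fun q y _ k => k.2.2.2 ▸ sa_I (j_ok h1).1 (ce_mem h1) k.1 hp k.2.1 k.2.2.1)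
    (fun _ _ _ _ k ⟨_, _, k'⟩ e => k'.2.2.2 ▸ e.onI (j_ok h1).1 hp
      (k.mono fun _ ⟨_, _, j⟩ => j.2.1))
    fun q y d ha k hd => ok_I h0 h1 ja sm ix lx ha k.1 hp k.2.1 k.2.2.1 (k.2.2.2 ▸ hd)⟩

end Crest.Agent.X212.Mi59
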