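import Crest.Agent.X212.Mi59.Num
import Crest.Agent.X212.Nd18.Kl

/-!
# Row 212, FACT (helper59): what regularity of the left and of the right part gives
-/

set_option autoImplicit false
set_option linter.unusedSectionVars false
set_option maxHeartbeats 400000
noncomputable section
open scoped Manifold ContDiff Topology InnerProductSpace
open MeasureTheory Set Function Filter Classical

namespace Crest.Agent.X212.Mi59
open An M G75 Jb7 Ins26 Nd18 Rf65 Pte3 Fk18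
open An.Job (Sol SolOn StrOn Str)

variable {κ lam : Type} [Fintype κ] [Fintype lam] [DecidableEq lam] {Lm : LM κ lam}
  {y₀ : G75.YD κ lam} {S : Scene Lm} {P : Pk y₀} {z : Z0 P S} {Z : Z1 z} {R : ℕ} {T δ : ℝ}
  {Adm : (Z.F.Wi →₀ ℝ) → Prop} {q : Z.F.Wi →₀ ℝ} {y : Z.Ob} {b : Bool} {π : Reg S.A}

theorem ou_a (h0 : z.OK R) (π : Reg S.A) : ou Z.e π z.t.a = π z.t.a :=
  if_neg fun k => ls_ne h0 k.2.1 rfl

theorem side (sm : Z.Sm) (h : π ∈ Z.Rg b) (k : π z.t.a ≠ none) : π z.t.a = some b :=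
  let ⟨_, _, h2, h3⟩ := sm.one b
  by_contra fun e => k (h3 π h fun e' => e (e' ▸ h2))

theorem rg_sub (b : Bool) : Z.Rg b ⊆ Z.Rg false ∪ Z.Rg true := by
  cases b
  exacts [Finset.subset_union_left, Finset.subset_union_right]

theorem fr_sub (y : Z.Ob) (b : Bool) : Z1.FR y b ⊆ Z.Rg false ∪ Z.Rg true :=
  (Finset.filter_subset _ _).trans (rg_sub b)

/-- the outer pieces with spinor -/
theorem im_FR (y : Z.Ob) (b : Bool) : ou Z.e '' ↑(Z1.FR y b) = y.F (Z.Ro b) :=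
  Subset.antisymm (image_subset_iff.2 fun π k => ⟨⟨π, (mem_FR.1 k).1, rfl⟩, (mem_FR.1 k).2⟩)
    fun _ ⟨⟨π, k, e⟩, k'⟩ => ⟨π, mem_FR.2 ⟨k, e ▸ k'⟩, e⟩

/-- no cuts on the left -/
theorem cs_left (h0 : z.OK R) (sm : Z.Sm) {F : Set (Reg S.A)} (hF : F ⊆ Z.Ro false)
    (H : Set S.ls) : Z.J.cs F H = ∅ := eq_empty_of_forall_notMem fun l hl => by
  obtain ⟨x, hx⟩ := (S.M.sys.w l).ne false
  obtain ⟨π, k1, k2⟩ := mem_iUnion₂.1 (hl.2 hx.2)
  exact (S.M.sys.w l).not_mem_sd hx.2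
    (Fex7.left_out h0.p.y h0.t h0.cn.ok l.2 ((ro_sdP sm (hF k1)).2 k2))

theorem le_left (sm : Z.Sm) (h : π ∈ Z.Rg false) (H : Set S.ls) : LE Z.e π ∪ DR H π = ∅ :=
  Finset.eq_empty_of_forall_notMem fun l hl => by
    have := (ncard_eq_zero (toFinite _)).1 (sm.nh0 π h)
    exact this.le ⟨l.2, (Finset.mem_union.1 hl).elim (fun k => (mem_LE.1 k).2) fun k => (mem_DR.1 k).2⟩

theorem fx_iff (h0 : z.OK R) (h1 : Z.OK T) (ja : JA Lm) (hy : Sol Z.ce q y) {o : Bool → P.C.C}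
    (ho : Z1.Cl y o b) : (Z.J.xs z.t.a).D.Fx (y.β z.t.a b) ↔ P.C.fx (o b) :=
  (LmA.cv (Y := Z.F.x0) (Z.F.xs_a Z.i) P.C (ja.lm _ _ _ _ _ _ _ _ _) (j_ok h1).1
    ⟨h1.a, (h0.cn.ok.fz _ h0.t.fz.1).1⟩ (ce_mem h1) hy (o := o b) ho).1

section num
variable {k : ℝ} {r n : ℕ} {τ : TrS S Z.F.Wi r n} {y' : (Z.jb k τ).Obc Z.e} {H : Set S.ls} {d : ℤ}
  (h0 : z.OK R) (h1 : Z.OK T) (ja : JA Lm) (sm : Z.Sm) (ix : Z.IxAt δ) (lx : Z.LxAt δ Adm)
  (ha : Adm q) (hy : Sol Z.ce q y) (hJ : (Z.jb k τ).OK ∧ LocP (Z.jb k τ) (shS S))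
  (he : Z1.o0 y' = Z1.o0 y)
include h0 h1 ja sm ix lx ha hy hJ he

/-- **the numbers of a part with spinor** -/
theorem num_F {Q : Finset (Reg S.A)} (hQ : Q ⊆ Z.Rg false ∪ Z.Rg true) {F : Set (Reg S.A)}
    (hF : F = ou Z.e '' ↑Q) (hH : Z.J.cs F H = Z.J.cs F y.H)
    (sa : SA z.t.a (Z.J.prt (shS S) Z.ce Z.e F F H) Z.ce q y')
    (hI : Job.In (Z.J.prt (shS S) Z.ce Z.e F F H) y')
    (hd : RegA z.t.a δ Z.ce (Z.J.prt (shS S) Z.ce Z.e F F H) q y' d) {o : Bool → P.C.C}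
    (ho : ∀ b, Z1.Cl y o b) :
    (if (r ≠ 0 ∨ ∃ π ∈ F, ¬FixP y' π) ∧
        ∀ b, (∃ π ∈ F, π z.t.a = some b) → (Z.J.xs z.t.a).D.Fx (y.β z.t.a b) then 1 else 0 : ℝ) -
      ∑ π ∈ Q, (if π z.t.a = some true then (nz (yD y₀) true (P.C.β (o true)) : ℝ) else 0) +
      ∑ π ∈ Q, ((LE Z.e π ∪ DR y.H π).card : ℝ) ≤
    ∑ π ∈ Q, Z1.Xt y Z.τ o π + 2 * r - 2 * n - (min r 1 : ℕ) := by
  have hβ : y'.β = y.β := congrArg Job.Obc.β he
  have hk : ∀ ρ, Z1.kp y' ρ = Z1.kp y ρ := fun ρ => by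
    have a : Z1.kp y' ρ = Z1.kp (Z1.o0 y') ρ := rfl
    have b : Z1.kp y ρ = Z1.kp (Z1.o0 y) ρ := rfl
    rw [a, b, he]
  have pc : ∀ π ∈ F, S.M.sys.Piece Z.e.1 π := by
    rintro _ i
    obtain ⟨π, j, rfl⟩ := hF.le i
    exact (Finset.mem_union.1 (hQ j)).elim (fun j => (sm.pc _ π j).1) fun j => (sm.pc _ π j).1
  have mj := Z1.mj h0 h1 ja.ly hJ.1 hJ.2
  have pg : PG (Z.jb k τ) Z.e Z.ce (Z.J.prt (shS S) Z.ce Z.e F F H) :=
    ⟨hJ.1, ce_mem h1, hJ.2.pok _ (ce_mem h1) _ _ _ H pc subset_rfl⟩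
  obtain ⟨x, e, dA, dT, hx⟩ := fill lx ha hy
  have e1 := ix _ r n τ true Q _ q y' o d x dT mj pg hQ hF rfl sa (RegA.ch hd)
    (fun b _ => by unfold Z1.Cl; rw [hβ]; exact ho b) fun π' j l hl =>
      let j := hx l (mem_LE.1 hl).1; ⟨show Fil δ 0 (Z1.o0 y') _ _ _ from he ▸ j.1, j.2.2.2.1⟩
  have e2 := ja.sy _ _ _ _ _ _ _ _ _ mj _ _ δ q y' d pg sa hI hd
  have e3 := sum_le_sym (J := Z.jb k τ) (a := z.t.a) (p := Z.J.prt (shS S) Z.ce Z.e F F H) (y := y')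
    (Q.biUnion (LE Z.e)) Subtype.val Subtype.val_injective.injOn fun l hl =>
      let ⟨π, j, j'⟩ := Finset.mem_biUnion.1 hl
      let j'' := le_end h0 j'; ⟨j''.1, j''.2.1, _, hF.ge ⟨π, j, rfl⟩, j''.2.2⟩
  have dj : (↑Q : Set (Reg S.A)).PairwiseDisjoint (LE Z.e) := fun π j π' j' ne =>
    Finset.disjoint_left.2 fun l u v =>
      ne (sm.uq l π (hQ j) π' (hQ j') (mem_LE.1 u).2 (mem_LE.1 v).2)
  rw [Finset.sum_biUnion dj] at e3
  have e4 := sm.V _ hQ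
  have e5 := sm.H _ hQ y.H
  rw [← hF] at e4 e5
  rw [← hH] at e5
  have e6 : ∀ π ∈ Q, 4 * ((LE Z.e π ∪ DR y.H π).card : ℝ) - 3 * (LE Z.e π).card ≤
      Z1.Xt y Z.τ o π - (6 * Z1.kp y' (ou Z.e π) - 3 * bR z.t Z.i π + sR z.t Z.i π / 2 +
        et z.t π P.Γ P.H.e0 o true + ∑ l ∈ LE Z.e π, (6 * Z1.kp (x l) (hp l.1 false) - dT l)) -
      (S.nm Z.τ π - (LE Z.e π).card) + 2 * (S.nh π - (LE Z.e π ∪ DR y.H π).card) := fun π _ => by
    have a6 := sum_drop Z.e y.H π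
    have a7 : ∑ l ∈ LE Z.e π, (Z1.kp y (hp l.1 false) + y.k l) =
        ∑ l ∈ LE Z.e π, (Z1.kp (x l) (hp l.1 false) + e l) :=
      Finset.sum_congr rfl fun l hl => (hx l (mem_LE.1 hl).1).2.1
    have a8 : ∑ l ∈ LE Z.e π, (2 : ℝ) ≤
        ∑ l ∈ LE Z.e π, (dT l + 6 * (e l + if l ∈ y.H then 0 else 1) : ℝ) :=
      Finset.sum_le_sum fun l hl => by
        have := (hx l (mem_LE.1 hl).1).2.2.2.2.2
        split_ifs at this ⊢ <;> exact_mod_cast this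
    simp only [Finset.sum_add_distrib, ← Finset.mul_sum, mul_add, Finset.sum_const,
      nsmul_eq_mul] at a7 a8
    simp only [Z1.Xt, Wr, Wt, Z1.Kp, hk, Finset.sum_add_distrib, Finset.sum_sub_distrib,
      ← Finset.mul_sum]
    linarith
  have e7 := Finset.sum_le_sum e6
  have e9 : ∑ π ∈ Q, ((LE Z.e π).card : ℝ) ≤ ∑ π ∈ Q, ((LE Z.e π ∪ DR y.H π).card : ℝ) :=
    Finset.sum_le_sum fun π _ => Nat.cast_le.2 (Finset.card_le_card Finset.subset_union_left)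
  have e10 := (Int.cast_le (R := ℝ)).2 e2
  have e3' := (Nat.cast_le (α := ℝ)).2 e3
  have e4' := congrArg (Nat.cast (R := ℝ)) e4
  have e5' := (Nat.cast_le (α := ℝ)).2 e5
  simp only [sym, dmA, Job.prt, hβ, cond_true, Finset.sum_add_distrib, Finset.sum_sub_distrib,
    ← Finset.mul_sum, Nat.cast_add, Nat.cast_sum, Int.cast_add, Int.cast_sub, Int.cast_mul,
    Int.cast_natCast, Int.cast_ofNat, Nat.cast_ite, Nat.cast_one, Nat.cast_zero, Int.cast_ite,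
    Int.cast_one, Int.cast_zero] at e1 e3' e4' e5' e7 e10 ⊢
  linarith

/-- **what regularity of the left part gives** -/
theorem ok_L (hr : r = z.m + 1) (hn : n = 0)
    (sa : SA z.t.a (Z.J.prt (shS S) Z.ce Z.e (y.F (Z.Ro false)) (y.F (Z.Ro false)) H) Z.ce q y')
    (hI : Job.In (Z.J.prt (shS S) Z.ce Z.e (y.F (Z.Ro false)) (y.F (Z.Ro false)) H) y')
    (hd : RegA z.t.a δ Z.ce (Z.J.prt (shS S) Z.ce Z.e (y.F (Z.Ro false)) (y.F (Z.Ro false)) H)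
      q y' d) : Z1.okL y := fun o ho => by
  have c := fun H => cs_left h0 sm (F := y.F (Z.Ro false)) (sep_subset _ _) H
  have k := num_F h0 h1 ja sm ix lx ha hy hJ he (fr_sub y false) (im_FR y false).symm
    ((c _).trans (c _).symm) sa hI hd ho
  have sd : ∀ π ∈ Z1.FR y false, ∀ b, π z.t.a = some b → b = false := fun π j b e =>
    Option.some.inj (e.symm.trans (side sm (mem_FR.1 j).1 (e.trans_ne nofun)))
  rw [Finset.sum_eq_zero fun π j => if_neg fun e => Bool.noConfusion (sd π j true e),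
    Finset.sum_eq_zero fun π j => by rw [le_left sm (mem_FR.1 j).1]; simp] at k
  have m : min r 1 = 1 := by omega
  have r' : (r : ℝ) = z.m + 1 := by exact_mod_cast hr
  have n' : (n : ℝ) = 0 := by exact_mod_cast hn
  rw [m, r', n'] at k
  refine le_trans ?_ (k.trans_eq (by push_cast; ring))
  split_ifs with j1 j2 <;> try norm_num
  refine j2 ⟨.inl (by omega), fun b ⟨_, i, e⟩ => ?_⟩
  obtain ⟨π, j, rfl⟩ := (im_FR y false).ge i
  rw [ou_a h0] at e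
  obtain rfl := sd π j b e
  exact (fx_iff h0 h1 ja hy (ho false)).2 (j1 π j (e.trans_ne nofun))

/-- **what regularity of the right part gives** -/
theorem ok_R (hr : r = 0) (hn : n = z.k) (hf : ∃ π ∈ y.F (Z.Ro true), ¬FixP y' π)
    (sa : SA z.t.a (Z.J.prt (shS S) Z.ce Z.e (y.F (Z.Ro true)) (y.F (Z.Ro true)) y.H) Z.ce q y')
    (hI : Job.In (Z.J.prt (shS S) Z.ce Z.e (y.F (Z.Ro true)) (y.F (Z.Ro true)) y.H) y')
    (hd : RegA z.t.a δ Z.ce (Z.J.prt (shS S) Z.ce Z.e (y.F (Z.Ro true)) (y.F (Z.Ro true)) y.H)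
      q y' d) : Z1.okR y := fun o ho => by
  have k := num_F h0 h1 ja sm ix lx ha hy hJ he (fr_sub y true) (im_FR y true).symm rfl sa hI hd ho
  have m : min r 1 = 0 := by omega
  have r' : (r : ℝ) = 0 := by exact_mod_cast hr
  have n' : (n : ℝ) = (z.k : ℕ) := by exact_mod_cast hn
  rw [m, r', n'] at k
  refine le_trans (add_le_add_left ?_ _) (k.trans_eq (by push_cast; ring))
  obtain ⟨π₁, -, j1, j2⟩ := sm.one true
  have j3 : ∀ π ∈ Z1.FR y true, π z.t.a ≠ none → π = π₁ := fun π j e =>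
    by_contra fun e' => e (j2 π (mem_FR.1 j).1 e')
  by_cases u : π₁ ∈ Z1.FR y true ∧ ¬P.C.fx (o true)
  · rw [Finset.sum_eq_single_of_mem π₁ u.1 fun π j e =>
      if_neg fun e' => e (j3 π j (e'.trans_ne nofun)), if_pos j1, nz,
      if_pos (c := true = true ∧ ¬(yD y₀).Fx (P.C.β (o true))) ⟨rfl, u.2⟩]
    split_ifs <;> norm_num
  · rw [if_pos, Finset.sum_eq_zero, sub_zero]
    · intro π j
      split_ifs with e
      · obtain rfl := j3 π j (e.trans_ne nofun)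
        rw [nz, if_neg fun v => u ⟨j, v.2⟩, Int.cast_zero]
      · rfl
    · refine ⟨.inr hf, fun b ⟨_, i, e⟩ => ?_⟩
      obtain ⟨π, j, rfl⟩ := (im_FR y true).ge i
      rw [ou_a h0] at e
      obtain rfl := j3 π j (e.trans_ne nofun)
      obtain rfl := Option.some.inj (j1.symm.trans e)
      exact (fx_iff h0 h1 ja hy (ho true)).2 (by_contra fun v => u ⟨j, v⟩)

end num

end Crest.Agent.X212.Mi59
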