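import Crest.Agent.X212.Nd18.Fk
import Crest.Agent.X212.Pte3.Sol
import Crest.Agent.X212.Dead36.Main
import Crest.Agent.X212.Fex7.Iso

/-!
# Row 212, FACT (helper59): common lemmas for the models of the parts of a face at `a`
-/

set_option autoImplicit false
set_option linter.unusedSectionVars false
set_option maxHeartbeats 400000
noncomputable section
open scoped Manifold ContDiff Topology InnerProductSpace
open MeasureTheory Set Function Filter Classical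

namespace Crest.Agent.X212.Mi59
open An M G75 Jb7 Ins26 Nd18 Rf65 Pte3 Fk18
open An.Job (Sol SolOn StrOn Str)

/-! ### job level -/

section job
variable {Wi : Type} {X : Mf 4} {A κ lam : Type} [Fintype A] [Fintype κ] [Fintype lam]
  [DecidableEq lam] {M : Mark X A κ} {W : World M} {N : ML M lam} {Λ : Lns W N}
  {A' h : Type} [Fintype A'] [DecidableEq A'] [Fintype h] {r n : ℕ}
  {J : Job Wi Λ A' h r n} {c : M.Cl} {a : A} {σ : Cel A'} {p : Prt A A' h} {δ : ℝ}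
  {Adm : (Wi →₀ ℝ) → Prop} {q : Wi →₀ ℝ} {y : J.Obc c} {sh : Set A'} {π : Reg A}

theorem locP_noz (H : LocP J sh) : LocP J.noz sh :=
  ⟨fun σ k c P P' K a b => (H.pok σ k c P P' K a b).noz, fun w => bas_noz (H.bas w), H.nb⟩

/-- density from richness -/
theorem onC (hn : ∀ i, IsPreconnected (J.nb i)) (hR : CRich J c σ p)
    (hT : ∀ s ∈ Job.cl σ, Sys.inf (J.Θ s).2 = c.1 → ∀ π ∈ p.P, J.RichT s π) (ha : Adm q)
    (S : SA a p σ q y) (hI : Job.In p y) : OnC a δ σ p Adm q y := fun _ _ H _ _ _ hb R =>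
  H.toCS.onto H.g S.toSolOn S.fre R trivial hb hR hI hn
    (H.toCS.onto_T H.g S.toSolOn S.fre R trivial hb hR hI ha hT)

/-- **pull-back of the model of a part** -/
theorem pull {Sl : (Wi →₀ ℝ) → J.Obc c → Prop} {D : Mo Wi (J.Obc c)}
    (hD : MA J c a δ σ p Adm Sl D) {Y : Type} (f : Y → J.Obc c) {Sol' : (Wi →₀ ℝ) → Y → Prop}
    {Lim' : ∀ α : Type, Ultrafilter α → (α → Y) → Y → Prop} {ok : Y → Prop}
    (h1 : ∀ q y, Adm q → Sol' q y → Sl q (f y))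
    (h2 : ∀ α (𝒰 : Ultrafilter α) y y₀, (∀ᶠ k in (𝒰 : Filter α), ∃ q, Adm q ∧ Sol' q (y k)) →
      (∃ q, Adm q ∧ Sol' q y₀) → Lim' α 𝒰 y y₀ → StrOn p 𝒰 (fun k => f (y k)) (f y₀))
    (h3 : ∀ q y d, Adm q → Sol' q y → RegA a δ σ p q (f y) d → ok y) :
    (D.comap f).Ax Adm Sol' Lim' ok :=
  { hD.ax.comap f h1 h2 (ok' := fun _ => True) fun _ => id with
    ker := fun q y k k' e => let ⟨d, hd⟩ := hD.reg q (f y) k (h1 q y k k') e; h3 q y d k k' hd }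

theorem RegA.ch {d : ℤ} (H : RegA a δ σ p q y d) : ChA a δ σ p q y d :=
  let ⟨b, E, x, ψ, k, _⟩ := H; ⟨b, E, x, ψ, k⟩

/-- a solution seen by an irreducible piece -/
theorem sa_I (hJ : J.OK) (hσ : σ ∈ J.𝒦) (H : Sol σ q y) (hπ : M.sys.Piece c.1 π) (h0 : ¬y.TF π)
    (h1 : ¬y.TA π) : SA a (J.prt sh σ c {π} ∅ y.H) σ q y.noz ∧
      Job.In (J.prt sh σ c {π} ∅ y.H) y.noz :=
  ⟨⟨H.onI hJ hσ (Dead36.dead hJ c) hπ h0, fun _ k => .inr (.inr ⟨id, k ▸ h1⟩),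
    fun ⟨_, k, e⟩ ⟨_, k', e'⟩ => nomatch (k ▸ e).symm.trans (k' ▸ e')⟩,
    fun _ k => k.elim, fun _ k _ => k ▸ h1⟩

/-- the stabilisers at outer ends are counted by `sym` -/
theorem sum_le_sym {I : Type} (L : Finset I) (w : I → A) (hw : InjOn w ↑L)
    (hL : ∀ l ∈ L, w l ∈ cylW c ∧ w l ≠ a ∧ p.En (w l) true) :
    ∑ l ∈ L, dz (J.xs (w l)).D (y.β (w l) true) ≤
      ∑ᶠ i ∈ {i ∈ EdP c p.P | i.1.1 ≠ a}, dz (J.xs i.1).D (y.β i.1 i.2) := by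
  rw [finsum_mem_eq_finite_toFinset_sum _ (toFinite _), ← Finset.sum_attach L]
  let f : L → Ed c := fun l => (⟨w l.1, (hL _ l.2).1⟩, true)
  refine (Finset.sum_image (s := L.attach) (g := f)
    (f := fun i => dz (J.xs i.1).D (y.β i.1 i.2)) fun l _ l' _ e =>
      Subtype.ext (hw l.2 l'.2 (congrArg (·.1.1) e))).ge.trans (Finset.sum_le_sum_of_subset ?_)
  refine Finset.image_subset_iff.2 fun l _ => (Finite.mem_toFinset _).2 ?_
  exact ⟨(hL _ l.2).2.2, (hL _ l.2).2.1⟩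

end job

/-! ### terms -/

section tm
variable {M lam : Type} [Fintype lam] {r r' n n' : ℕ} (f : Fin r → Fin r') (g : Fin n → Fin n')

theorem noz_mp (τ : Tm M lam r n) : (τ.mp f g).noz = τ.noz := by cases τ <;> rfl

theorem noz_mpc (t : Tc M lam r) : (⟨t.m, t.n, t.w, t.ξ.mp f⟩ : Tc M lam r').noz = t.noz := by
  rcases t with ⟨m, n, w, _ | _ | ⟨_ | _, _⟩⟩ <;> rfl

end tm

variable {κ lam : Type} [Fintype κ] [Fintype lam] [DecidableEq lam] {Lm : LM κ lam}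
  {y₀ : G75.YD κ lam} {S : Scene Lm}

/-- the terms seen by connections -/
abbrev tz {W : Type} {r n : ℕ} (τ : TrS S W r n) : TrS S W 0 0 :=
  ⟨fun w => (τ.tw w).noz, τ.co, fun i w => (τ.tc i w).noz, τ.cc⟩

theorem cl_cel {τ σ : Finset S.A} (h : τ ⊆ σ) (o : Option Bool) :
    Job.cl (cel τ o) ⊆ Job.cl (cel σ o) := fun s hs => ⟨fun a b e => hs.1 a b (by
      rcases a with a | a
      · by_cases k : a ∈ σ
        · simp [k] at e
        · simpa [k, mt (@h a) k] using e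
      · exact e), hs.2⟩

section pr
variable {t : TD y₀ S} {N : ND (yY y₀).M (lam ⊕ lam)} {n : ℕ} {D : S.Dat} {F : Pr t N n D}
  {c : Cn S.L S.A} {d : ℕ} {i : S.L} {s : S.A ⊕ Unit → ℝ} {π : Reg S.A} {k k' : ℝ} {r n' : ℕ}
  {τ τ' : TrS S F.Wi r n'}

theorem richT_of (e : ∀ w, τ'.co w s ≠ 0 → τ.tw w = τ'.tw w ∧ τ.co w s = τ'.co w s ∧
    ∀ l, τ.cc l w s = τ'.cc l w s) (h : (F.jb c i k' τ').RichT s π) : (F.jb c i k τ).RichT s π :=
  fun T a b c => let ⟨w, h1, h2, h3, h4⟩ := h T a b c; let ⟨e1, e2, e3⟩ := e w h2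
    ⟨w, e1.trans h1, e2.trans_ne h2, fun l => (e3 l).trans (h3 l), h4⟩

theorem richC_of {l : S.ls} (e : ∀ w, τ'.cc l w s ≠ 0 → τ.tc l w = τ'.tc l w ∧
    τ.co w s = τ'.co w s ∧ ∀ l, τ.cc l w s = τ'.cc l w s) (h : (F.jb c i k' τ').RichC s π l) :
    (F.jb c i k τ).RichC s π l :=
  fun T a => let ⟨w, h1, h2, h3, h4, h5⟩ := h T a; let ⟨e1, e2, e3⟩ := e w h2
    ⟨w, e1.trans h1, (e3 l).trans_ne h2, e2.trans h3, fun l' k => (e3 l').trans (h4 l' k), h5⟩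

variable {m : ℕ} {j : Fin (n + 1)}

theorem richT_L (h : (F.JL c i m).RichT s π) : (F.J c d i m j).noz.RichT s π :=
  richT_of (τ := tz (F.tt i m j)) (τ' := tz ((trZ _).sum ((F.tL m).sum (trZ _)))) (k' := 0)
    (fun w hw => by
      rcases w with w | w | w
      exacts [(hw rfl).elim, ⟨noz_mp _ _ _, rfl, fun _ => rfl⟩, (hw rfl).elim]) h.noz

theorem richT_R (h : (F.JR c i j).RichT s π) : (F.J c d i m j).noz.RichT s π :=
  richT_of (τ := tz (F.tt i m j))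
    (τ' := tz ((trZ _).sum ((trZ _).sum ((F.tR i j).sum (trZ _))))) (k' := 0) (fun w hw => by
      rcases w with w | w | w | w
      exacts [(hw rfl).elim, (hw rfl).elim, ⟨noz_mp _ _ _, rfl, fun _ => rfl⟩, (hw rfl).elim]) h.noz

theorem richC_R {l : S.ls} (h : (F.JR c i j).RichC s π l) : (F.J c d i m j).noz.RichC s π l :=
  richC_of (τ := tz (F.tt i m j))
    (τ' := tz ((trZ _).sum ((trZ _).sum ((F.tR i j).sum (trZ _))))) (k' := 0) (fun w hw => by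
      rcases w with w | w | w | w
      exacts [(hw rfl).elim, (hw rfl).elim, ⟨noz_mpc _ _, rfl, fun _ => rfl⟩, (hw rfl).elim]) h.noz

end pr

/-! ### faces -/

variable {P : Pk y₀} {z : Z0 P S} {Z : Z1 z} {R : ℕ} {T : ℝ}

theorem c_ne (h1 : Z.OK T) : z.c Z.i ≠ 0 := fun e => h1.c (congrFun e _)

theorem ce_mem (h1 : Z.OK T) : Z.ce ∈ cls z.c Z.i := ⟨_, _, _, rfl, nofun, h1.c, h1.sub⟩

theorem j_ok (h1 : Z.OK T) : Z.J.OK ∧ LocP Z.J (shS S) := h1.F.J _ (c_ne h1) _ _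

/-- over the face the last coordinate is `1` -/
theorem fc_of (h1 : Z.OK T) {s : S.A ⊕ Unit → ℝ} (hs : s ∈ Job.cl Z.ce)
    (e : Sys.inf (Z.F.Θ s).2 = Z.e.1) : Pr.Fc Z.σ s :=
  ⟨cl_cel h1.sub _ hs, (j_ok h1).1.eq_one (ce_mem h1) ⟨Z.J.cl_dom hs, e⟩ (a := .inr ()) rfl h1.a⟩

theorem mem_Rg {b : Bool} {π : Reg S.A} : π ∈ Z.Rg b ↔ z.t.Pc b (pe Z.e) π := by
  simp [Z1.Rg, Rg]

theorem mem_LE {e : S.M.Cl} {π : Reg S.A} {l : S.ls} :
    l ∈ Fk18.LE e π ↔ l.1 ∈ e.1 ∧ l.1 ∈ S.M.sys.inn π :=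
  Finset.mem_filter.trans (and_iff_right (Finset.mem_univ _))

theorem mem_DR {H : Set S.ls} {π : Reg S.A} {l : S.ls} :
    l ∈ DR H π ↔ l ∉ H ∧ l.1 ∈ S.M.sys.inn π := by simp [DR]

theorem ls_ne (h0 : z.OK R) {l : S.A} (hl : l ∈ S.ls) : l ≠ z.t.a :=
  fun e => (h0.cn.ok.fz _ h0.t.fz.1).2.1 (e ▸ hl)

/-- outer pieces lie on their side -/
theorem ro_sdP (sm : Z.Sm) {b : Bool} {π : Reg S.A} (hπ : π ∈ Z.Ro b) : π ∈ sdP z.t Z.e b := by
  obtain ⟨ρ, k, rfl⟩ := hπ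
  exact ⟨(sm.pc b ρ k).1, (sm.pc b ρ k).2.trans (mem_Rg.1 k).2⟩

/-- outer pieces are not inside a lens wall -/
theorem ro_out (h0 : z.OK R) {b : Bool} {π : Reg S.A} (hπ : π ∈ Z.Ro b) :
    ∀ l ∈ S.ls, π l ≠ some false := fun l hl e => by
  obtain ⟨ρ, k, rfl⟩ := hπ
  unfold ou at e
  split_ifs at e
  · exact nomatch e
  · have := (mem_Rg.1 k).1.bd_subset (Sys.mem_bd_of e)
    simp only [pe, Finset.coe_insert, mem_insert_iff, Finset.coe_filter, mem_ofPred_eq] at this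
    exact this.elim (ls_ne h0 hl) fun j => h0.cn.ok.lsp l hl j.2.2

/-- no cut lies on the left -/
theorem no_cut (h0 : z.OK R) {π : Reg S.A} (hπ : π ∈ sdP z.t Z.e false) (l : S.ls) :
    ¬S.nb l ⊆ S.M.sys.U π := fun k =>
  let ⟨_, hx⟩ := (S.M.sys.w l).ne false
  (S.M.sys.w l).not_mem_sd hx.2 (Fex7.left_out h0.p.y h0.t h0.cn.ok l.2 (hπ.2 (k hx.2)))

/-- the outer ends of the broken lens walls of a region -/
theorem le_end (h0 : z.OK R) {π : Reg S.A} {l : S.ls} (hl : l ∈ LE Z.e π) :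
    l.1 ∈ cylW Z.e ∧ l.1 ≠ z.t.a ∧ ou Z.e π l = some true :=
  have k := mem_LE.1 hl
  ⟨⟨k.1, h0.cn.ok.lsp _ l.2⟩, ls_ne h0 l.2, if_pos ⟨k.1, l.2, k.2⟩⟩

/-- **richness of the job without spinor on the outer pieces** -/
theorem rich_noz (h0 : z.OK R) (h1 : Z.OK T) (sm : Z.Sm) {b : Bool} {π : Reg S.A}
    (hπ : π ∈ Z.Ro b) {s : S.A ⊕ Unit → ℝ} (hs : s ∈ Job.cl Z.ce)
    (e : Sys.inf (Z.F.Θ s).2 = Z.e.1) :
    Z.J.noz.RichT s π ∧ ∀ l, S.nb l ⊆ S.M.sys.U π → Z.J.noz.RichC s π l := by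
  have k := ro_sdP sm hπ
  cases b
  · exact ⟨richT_L (h1.F.richL _ _ _ _ h1.c (fc_of h1 hs e) _ e π k),
      fun l hl => (no_cut h0 k l hl).elim⟩
  · have := h1.F.richR _ _ z.k _ h1.c (fc_of h1 hs e) _ e π k
    exact ⟨richT_R (this.2 (ro_out h0 hπ)).1, fun l hl => richC_R (this.1 l hl)⟩

/-- fillers for all broken lens walls at once -/
theorem fill {δ : ℝ} {Adm : (Z.F.Wi →₀ ℝ) → Prop} (hx : Z.LxAt δ Adm) {q : Z.F.Wi →₀ ℝ} {y : Z.Ob}
    (ha : Adm q) (hy : Sol Z.ce q y) : ∃ (x : S.ls → Z.J0.Obc Z.e) (e : S.ls → ℕ)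
      (dA dT : S.ls → ℤ), ∀ l : S.ls, l.1 ∈ Z.e.1 → Z1.Fl y δ (x l) l ∧
        Z1.kp y (hp l.1 false) + y.k l = Z1.kp (x l) (hp l.1 false) + e l ∧
        Ix δ (x l) {hp l.1 false} ∅ (dA l) ∧ Ix δ (x l) {hp l.1 false} {hp l.1 false} (dT l) ∧
        1 ≤ dA l + 8 * (e l + if l ∈ y.H then 0 else 1) ∧
        2 ≤ dT l + 6 * (e l + if l ∈ y.H then 0 else 1) := by
  have : Nonempty (Z.J0.Obc Z.e) := ⟨Z1.o0 y⟩
  choose! x e dA dT k using fun (l : S.ls) (hl : l.1 ∈ Z.e.1) => (hx q y l ha hy hl).2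
  exact ⟨x, e, dA, dT, k⟩

/-- the dropped cuts at broken lens walls -/
theorem sum_drop (e : S.M.Cl) (H : Set S.ls) (π : Reg S.A) :
    ∑ l ∈ LE e π, (if l ∈ H then 0 else 1 : ℝ) + (LE e π ∪ DR H π).card =
      (LE e π).card + (DR H π).card := by
  have : ∑ l ∈ LE e π, (if l ∈ H then 0 else 1 : ℝ) = (LE e π ∩ DR H π).card := by
    rw [← Finset.filter_mem_eq_inter, Finset.card_filter, Nat.cast_sum]
    refine Finset.sum_congr rfl fun l hl => ?_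
    by_cases k : l ∈ H <;> simp [k, mem_DR, (mem_LE.1 hl).2]
  rw [this, ← Nat.cast_add, ← Nat.cast_add, add_comm, Finset.card_union_add_card_inter]

end Crest.Agent.X212.Mi59
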